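import Vale.Agent.P011.E6X.H69.Near
import Vale.Agent.P011.E6X.Her
import Vale.Agent.P011.ExtF.Conv

/-!
Gram matrices of the hermitian form at the real places: matrices close to the standard one, definite
matrices, standard points.
-/

open Matrix NumberField
open scoped ComplexOrder ComplexConjugate

namespace Vale.Agent.P011.E6X

open Vale.Agent.P011.E6O

open Vale.Agent.P011.MPQ Vale.Agent.P011.D4 Vale.Agent.P011.D4.Oct Vale.Agent.P011.E6 Alb

/-- A positive definite matrix is congruent to any positive diagonal matrix. -/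
theorem pos_congr {G : Matrix (Fin 3) (Fin 3) ℂ} (hG : G.PosDef) (d : Fin 3 → ℝ)
    (hd : ∀ i, 0 < d i) : ∃ Q : Matrix (Fin 3) (Fin 3) ℂ, IsUnit Q ∧
      Q * G * Qᴴ = Matrix.diagonal (fun i => (d i : ℂ)) := by
  obtain ⟨C, B, h1, h2, h3⟩ := ExtF.exists_root hG
  have h4 : B * G * Bᴴ = 1 := by
    have h5 : Cᴴ * Bᴴ = 1 := by rw [← Matrix.conjTranspose_mul, h3, Matrix.conjTranspose_one]
    rw [h1, ← Matrix.mul_assoc, h3, Matrix.one_mul, h5]
  have hB : IsUnit B := ⟨⟨B, C, h3, h2⟩, rfl⟩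
  refine ⟨Matrix.diagonal (fun i => (Real.sqrt (d i) : ℂ)) * B, ?_, ?_⟩
  · refine IsUnit.mul ?_ hB
    rw [Matrix.isUnit_iff_isUnit_det, Matrix.det_diagonal, isUnit_iff_ne_zero]
    refine Finset.prod_ne_zero_iff.2 fun i _ => ?_
    have h6 : Real.sqrt (d i) ≠ 0 := (Real.sqrt_pos.2 (hd i)).ne'
    exact_mod_cast h6
  · have e1 : (Matrix.diagonal (fun i => (Real.sqrt (d i) : ℂ)) : Matrix (Fin 3) (Fin 3) ℂ)ᴴ =
        Matrix.diagonal (fun i => (Real.sqrt (d i) : ℂ)) := by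
      rw [Matrix.diagonal_conjTranspose]
      congr 1
      funext i
      exact Complex.conj_ofReal _
    rw [Matrix.conjTranspose_mul, e1]
    calc Matrix.diagonal (fun i => (Real.sqrt (d i) : ℂ)) * B * G *
        (Bᴴ * Matrix.diagonal (fun i => (Real.sqrt (d i) : ℂ))) =
        Matrix.diagonal (fun i => (Real.sqrt (d i) : ℂ)) * (B * G * Bᴴ) *
          Matrix.diagonal (fun i => (Real.sqrt (d i) : ℂ)) := by simp only [Matrix.mul_assoc]
      _ = Matrix.diagonal (fun i => (d i : ℂ)) := by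
          rw [h4, Matrix.mul_one, Matrix.diagonal_mul_diagonal]
          congr 1
          funext i
          rw [← Complex.ofReal_mul, Real.mul_self_sqrt (hd i).le]

/-- A definite matrix is congruent to any diagonal matrix of the same sign. -/
theorem def_congr {G : Matrix (Fin 3) (Fin 3) ℂ} {s : ℝ} (hs : s ≠ 0) (hG : ((s : ℂ) • G).PosDef)
    (d : Fin 3 → ℝ) (hd : ∀ i, 0 < s * d i) : ∃ Q : Matrix (Fin 3) (Fin 3) ℂ, IsUnit Q ∧
      Q * G * Qᴴ = Matrix.diagonal (fun i => (d i : ℂ)) := by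
  obtain ⟨Q, hQ, h⟩ := pos_congr hG (fun i => s * d i) hd
  refine ⟨Q, hQ, ?_⟩
  have hs' : (s : ℂ) ≠ 0 := by exact_mod_cast hs
  have h2 : (s : ℂ) • (Q * G * Qᴴ) = (s : ℂ) • Matrix.diagonal (fun i => (d i : ℂ)) := by
    rw [← Matrix.diagonal_smul]
    have h3 : (s : ℂ) • (fun i => (d i : ℂ)) = fun i => ((s * d i : ℝ) : ℂ) := by
      funext i
      rw [Pi.smul_apply, smul_eq_mul, Complex.ofReal_mul]
    rw [h3, ← h, Matrix.mul_smul, Matrix.smul_mul]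
  exact smul_right_injective _ hs' h2

variable {k E : Type} [Field k] [Field E] [Algebra k E]
  {ρ σ : E ≃ₐ[k] E} {lam : Eˣ} {g : Fin 3 → Eˣ} {al s : E} {a b c : kˣ}

theorem real_of_fix {w : E →+* ℂ} (hw : ∀ x, w (σ x) = conj (w x)) {x : E} (hx : σ x = x) :
    ((w x).re : ℂ) = w x := by
  have h1 := hw x
  rw [hx] at h1
  exact Complex.conj_eq_iff_re.1 h1.symm

theorem her_star (σ2 : ∀ x, σ (σ x) = x) (σg : ∀ i, σ (g i) = g i) (x y : AlbL E a b c) :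
    σ (her σ g x y) = her σ g y x := by
  have h0 : ∀ i, σ ((g i : Eˣ) : E) = g i := σg
  have h1 : ∀ z : OctL E a b c, omap σ (omap σ z) = z := by
    intro z
    apply Oct.ext8 <;> exact σ2 _
  have hb : ∀ z t : OctL E a b c, σ (bil z (omap σ t)) = bil t (omap σ z) := by
    intro z t
    rw [← H493.bil_om, h1, bil_comm]
  simp only [her, Alb.tf, Alb.wt, amap, map_add, map_mul, map_pow, h0, σ2, bil_smul_left, hb]
  ring

/-- The Gram matrix at an embedding. -/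
def gr (w : E →+* ℂ) (σ : E ≃ₐ[k] E) (g : Fin 3 → Eˣ) (v : Fin 3 → AlbL E a b c) :
    Matrix (Fin 3) (Fin 3) ℂ := Matrix.of fun i j => w (her σ g (v i) (v j))

/-- The diagonal matrix of the standard line. -/
def dW (w : E →+* ℂ) (g : Fin 3 → Eˣ) : Matrix (Fin 3) (Fin 3) ℂ :=
  Matrix.diagonal fun i => w (((![g 1 * g 2, g 2 * g 0, g 0 * g 1] : Fin 3 → Eˣ) i : Eˣ) : E)

theorem gr_star {w : E →+* ℂ} (hw : ∀ x, w (σ x) = conj (w x)) (σ2 : ∀ x, σ (σ x) = x)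
    (σg : ∀ i, σ (g i) = g i) (v : Fin 3 → AlbL E a b c) (i j : Fin 3) :
    star (gr w σ g v i j) = gr w σ g v j i := by
  change conj (w (her σ g (v i) (v j))) = w (her σ g (v j) (v i))
  rw [← hw, her_star σ2 σg]

/-- The real numbers on the diagonal. -/
noncomputable def rW (w : E →+* ℂ) (g : Fin 3 → Eˣ) (i : Fin 3) : ℝ :=
  (w (((![g 1 * g 2, g 2 * g 0, g 0 * g 1] : Fin 3 → Eˣ) i : Eˣ) : E)).re

theorem rW_ne {w : E →+* ℂ} (hw : ∀ x, w (σ x) = conj (w x)) (σg : ∀ i, σ (g i) = g i)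
    (i : Fin 3) : (rW w g i : ℂ) = w (((![g 1 * g 2, g 2 * g 0, g 0 * g 1] : Fin 3 → Eˣ) i : Eˣ) :
      E) ∧ rW w g i ≠ 0 := by
  have h0 : ∀ i, σ ((g i : Eˣ) : E) = g i := σg
  have h1 : σ (((![g 1 * g 2, g 2 * g 0, g 0 * g 1] : Fin 3 → Eˣ) i : Eˣ) : E) =
      (((![g 1 * g 2, g 2 * g 0, g 0 * g 1] : Fin 3 → Eˣ) i : Eˣ) : E) := by
    fin_cases i
    · change σ (((g 1 * g 2 : Eˣ)) : E) = ((g 1 * g 2 : Eˣ) : E)
      rw [Units.val_mul, map_mul, h0, h0]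
    · change σ (((g 2 * g 0 : Eˣ)) : E) = ((g 2 * g 0 : Eˣ) : E)
      rw [Units.val_mul, map_mul, h0, h0]
    · change σ (((g 0 * g 1 : Eˣ)) : E) = ((g 0 * g 1 : Eˣ) : E)
      rw [Units.val_mul, map_mul, h0, h0]
  have h2 := real_of_fix hw h1
  refine ⟨h2, fun h3 => ?_⟩
  change (w (((![g 1 * g 2, g 2 * g 0, g 0 * g 1] : Fin 3 → Eˣ) i : Eˣ) : E)).re = 0 at h3
  rw [h3, Complex.ofReal_zero] at h2
  exact (map_ne_zero w).2 (Units.ne_zero _) h2.symm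

theorem dW_eq {w : E →+* ℂ} (hw : ∀ x, w (σ x) = conj (w x)) (σg : ∀ i, σ (g i) = g i) (ε : ℝ) :
    (ε : ℂ) • dW w g = Matrix.diagonal (fun i => ((ε * rW w g i : ℝ) : ℂ)) := by
  rw [dW, ← Matrix.diagonal_smul]
  congr 1
  funext i
  rw [Pi.smul_apply, smul_eq_mul, Complex.ofReal_mul, (rW_ne hw σg i).1]

/-- **A Gram matrix close to the standard one is congruent to it.** -/
theorem near_gr {w : E →+* ℂ} (hw : ∀ x, w (σ x) = conj (w x)) (σ2 : ∀ x, σ (σ x) = x)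
    (σg : ∀ i, σ (g i) = g i) {ε : ℝ} (hε : ε ≠ 0) : ∃ δ : ℝ, 0 < δ ∧
      ∀ v : Fin 3 → AlbL E a b c, (∀ i j, ‖gr w σ g v i j - ((ε : ℂ) • dW w g) i j‖ < δ) →
        ∃ Q : Matrix (Fin 3) (Fin 3) ℂ, IsUnit Q ∧ Q * gr w σ g v * Qᴴ = (ε : ℂ) • dW w g := by
  obtain ⟨δ, hδ, h⟩ := near_congr (fun i => ε * rW w g i)
    (fun i => mul_ne_zero hε (rW_ne hw σg i).2)
  refine ⟨δ, hδ, fun v hv => ?_⟩
  rw [dW_eq hw σg] at hv ⊢
  exact h _ (gr_star hw σ2 σg v) hv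

/-- A definite Gram matrix is congruent to the standard one. -/
theorem def_gr {w : E →+* ℂ} (hw : ∀ x, w (σ x) = conj (w x)) (σg : ∀ i, σ (g i) = g i)
    {ε s : ℝ} (hs : s ≠ 0) {v : Fin 3 → AlbL E a b c} (hG : ((s : ℂ) • gr w σ g v).PosDef)
    (hd : ∀ i, 0 < s * (ε * rW w g i)) :
    ∃ Q : Matrix (Fin 3) (Fin 3) ℂ, IsUnit Q ∧ Q * gr w σ g v * Qᴴ = (ε : ℂ) • dW w g := by
  rw [dW_eq hw σg]
  exact def_congr hs hG _ hd

end Vale.Agent.P011.E6X
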