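import Vale.Agent.P011.E6X.XDefs
import Vale.Agent.P011.E6X.H69.TyN

/-!
Block E6X: the type of a point at the real places.
-/

open NumberField Matrix
open scoped ComplexOrder

namespace Vale.Agent.P011.E6X

open Vale.Agent.P011.MPQ Vale.Agent.P011.D4 Vale.Agent.P011.D4.Oct Vale.Agent.P011.E6
open Vale.Agent.P011.E6O

variable {k E : Type} [Field k] [Field E] [Algebra k E]
  {ρ σ : E ≃ₐ[k] E} {lam : Eˣ} {g : Fin 3 → Eˣ} {al s : E} {a b c : kˣ}

theorem vk_eq {w : E →+* ℂ} (hw : SC σ w) (t : k) : (vk w t : ℂ) = w (algebraMap k E t) :=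
  real_of_fix hw (σ.commutes t)

theorem vk_ne {w : E →+* ℂ} (hw : SC σ w) {t : k} (ht : t ≠ 0) : vk w t ≠ 0 := by
  intro h
  have h1 := vk_eq hw t
  rw [h, Complex.ofReal_zero] at h1
  exact (map_ne_zero w).2 ((map_ne_zero (algebraMap k E)).2 ht) h1.symm

theorem vk_mul {w : E →+* ℂ} (hw : SC σ w) (t t' : k) : vk w (t * t') = vk w t * vk w t' := by
  have h1 := vk_eq hw (t * t')
  rw [map_mul, map_mul, ← vk_eq hw t, ← vk_eq hw t', ← Complex.ofReal_mul] at h1
  exact_mod_cast h1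

/-- The real numbers of the standard form. -/
theorem gst_real {w : E →+* ℂ} (hw : SC σ w) (hσg : ∀ i, σ (g i) = g i) :
    ∃ r : Fin 3 → ℝ, (∀ i, r i ≠ 0) ∧ gst g w = Matrix.diagonal (fun i => (r i : ℂ)) ∧
      r 0 = (w (g 1 * g 2)).re ∧ r 1 = (w (g 2 * g 0)).re ∧ r 2 = (w (g 0 * g 1)).re := by
  have h0 : ∀ i j, σ ((g i : E) * g j) = g i * g j := fun i j => by
    rw [map_mul, hσg, hσg]
  have h1 : ∀ i j, ((w ((g i : E) * g j)).re : ℂ) = w ((g i : E) * g j) := fun i j =>
    real_of_fix hw (h0 i j)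
  have h2 : ∀ i j, (w ((g i : E) * g j)).re ≠ 0 := fun i j h3 => by
    have h4 := h1 i j
    rw [h3, Complex.ofReal_zero] at h4
    exact (map_ne_zero w).2 (mul_ne_zero (g i).ne_zero (g j).ne_zero) h4.symm
  refine ⟨![(w (g 1 * g 2)).re, (w (g 2 * g 0)).re, (w (g 0 * g 1)).re], ?_, ?_, rfl, rfl, rfl⟩
  · intro i
    fin_cases i
    · exact h2 1 2
    · exact h2 2 0
    · exact h2 0 1
  · rw [gst]
    congr 1
    funext i
    fin_cases i
    · exact (h1 1 2).symm
    · exact (h1 2 0).symm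
    · exact (h1 0 1).symm

theorem smul_gst {w : E →+* ℂ} (hw : SC σ w) {r : Fin 3 → ℝ}
    (hr : gst g w = Matrix.diagonal (fun i => (r i : ℂ))) (f : k) :
    w (algebraMap k E f) • gst g w = Matrix.diagonal (fun i => ((vk w f * r i : ℝ) : ℂ)) := by
  rw [hr, ← Matrix.diagonal_smul, ← vk_eq hw]
  congr 1
  funext i
  rw [Pi.smul_apply, smul_eq_mul, Complex.ofReal_mul]

/-- If the Gram matrix is near a nonzero multiple of the standard form, then it is congruent to
it. -/
theorem tyAt_near {w : E →+* ℂ} (hw : SC σ w) (hσg : ∀ i, σ (g i) = g i) {f : k} (hf : f ≠ 0) :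
    ∃ ε : ℝ, 0 < ε ∧ ∀ G : Matrix (Fin 3) (Fin 3) ℂ, Gᴴ = G →
      (∀ i j, ‖G i j - w (algebraMap k E f) * gst g w i j‖ < ε) →
        ∃ Q : Matrix (Fin 3) (Fin 3) ℂ, IsUnit Q ∧
          Q * G * Qᴴ = w (algebraMap k E f) • gst g w := by
  obtain ⟨r, hr0, hr, -⟩ := gst_real hw hσg
  obtain ⟨δ, hδ, h⟩ := near_congr (fun i => vk w f * r i) fun i => mul_ne_zero (vk_ne hw hf) (hr0 i)
  refine ⟨δ, hδ, fun G hG hn => ?_⟩
  have e := smul_gst hw hr f
  rw [e]
  refine h G (fun i j => ?_) fun i j => ?_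
  · have h1 := congrFun (congrFun hG j) i
    rwa [Matrix.conjTranspose_apply] at h1
  · rw [← e]
    exact hn i j

theorem gram_herm (H : E6X.Hyp ρ σ lam g al s a b c) {w : E →+* ℂ} (hw : SC σ w)
    (x : Fin 3 → AlbL E a b c) : (gram σ g w x)ᴴ = gram σ g w x := by
  ext i j
  rw [Matrix.conjTranspose_apply]
  exact gr_star hw H.σ2 H.σg x j i

theorem tyAt_map {w : E →+* ℂ} {f : k} {A : Submodule E (AlbL E a b c)}
    (hA : TyAt σ g w f A) {φ : AlbL E a b c ≃ₗ[E] AlbL E a b c} (hφ : φ ∈ GO ρ σ lam g a b c) :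
    TyAt σ g w f (A.map (φ : AlbL E a b c →ₗ[E] AlbL E a b c)) := by
  obtain ⟨x, hx, Q, hQ, h⟩ := hA
  refine ⟨fun i => φ (x i), fun i => Submodule.mem_map_of_mem (hx i), Q, hQ, ?_⟩
  have e : gram σ g w (fun i => φ (x i)) = gram σ g w x := by
    ext i j
    exact congrArg w (hφ.2.2 (x i) (x j))
  rw [e, h]

theorem tyAt_trip [CharZero E] {w : E →+* ℂ} {f : k} {b' c' : kˣ} {i j l : Oct a b c}
    (ht : Trip a b' c' i j l) {A : Submodule E (AlbL E a b c)} (hA : TyAt σ g w f A) :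
    TyAt σ g w f (A.map ((tripA E ht).symm : AlbL E a b c →ₗ[E] AlbL E a b' c')) := by
  obtain ⟨x, hx, Q, hQ, h⟩ := hA
  refine ⟨fun i => (tripA E ht).symm (x i), fun i => Submodule.mem_map_of_mem (hx i), Q, hQ, ?_⟩
  have e : gram σ g w (fun i => (tripA E ht).symm (x i)) = gram σ g w x := by
    ext i j
    refine congrArg w ?_
    rw [← H493.tripA_her ht, LinearEquiv.apply_symm_apply, LinearEquiv.apply_symm_apply]
  rw [e, h]

theorem her_pb (x : OctL E a b c) (i j : Fin 3) :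
    her σ g (pb x i) (pb x j) = if i = j then
      (![(g 1 : E) * g 2, g 2 * g 0, g 0 * g 1] : Fin 3 → E) i * bil x (omap σ x) else 0 := by
  have h1 : ∀ t : E, omap σ (t • x) = σ t • omap σ x := fun t => omap_smul _ _ _
  rw [her, Alb.tf]
  simp only [Alb.wt, amap, pb, map_zero, mul_zero, zero_add, h1, smul_smul, bil_smul_left,
    bil_smul_right]
  fin_cases i <;> fin_cases j <;> simp

theorem bil_st [CharZero E] (hal : al ^ 2 = algebraMap k E a) (hσal : σ al = -al) :
    bil (⟨ep al, 0⟩ * oup E gl : OctL E a b c) (omap σ (⟨ep al, 0⟩ * oup E gl)) =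
      algebraMap k E (-(c : k)) ∧
    bil (⟨E6O.em al, 0⟩ * oup E gl : OctL E a b c) (omap σ (⟨E6O.em al, 0⟩ * oup E gl)) =
      algebraMap k E (-(c : k)) := by
  have hal0 : al ≠ 0 := by
    rintro rfl
    rw [zero_pow two_ne_zero] at hal
    exact (map_ne_zero (algebraMap k E)).2 a.ne_zero hal.symm
  have e1 : ((up E a : Eˣ) : E) = al ^ 2 := hal.symm
  have e2 : ((up E c : Eˣ) : E) = algebraMap k E (c : k) := rfl
  rw [H493.em_mul_gl, H493.ep_mul_gl]
  constructor
  · rw [bil_eq]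
    simp only [omap, qmap, ep, e1, e2, map_div₀, map_one, map_ofNat, map_mul, hσal, map_zero,
      map_neg, QuaternionAlgebra.re_zero, QuaternionAlgebra.imI_zero,
      QuaternionAlgebra.imJ_zero, QuaternionAlgebra.imK_zero]
    field_simp
    ring
  · rw [bil_eq]
    simp only [omap, qmap, E6O.em, e1, e2, map_div₀, map_one, map_ofNat, map_mul, hσal, map_zero,
      map_neg, QuaternionAlgebra.re_zero, QuaternionAlgebra.imI_zero,
      QuaternionAlgebra.imJ_zero, QuaternionAlgebra.imK_zero]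
    field_simp
    ring

theorem tyAt_Apt {w : E →+* ℂ} {f : k} {x : OctL E a b c}
    (h : bil x (omap σ x) = algebraMap k E f) : TyAt σ g w f (Apt x) := by
  refine ⟨pb x, fun i => ⟨fun j => if i = j then 1 else 0, ?_⟩, 1, isUnit_one, ?_⟩
  · fin_cases i <;> simp [pb]
  · rw [Matrix.conjTranspose_one, Matrix.one_mul, Matrix.mul_one]
    ext i j
    rw [gram, Matrix.of_apply, her_pb, Matrix.smul_apply, gst, h]
    by_cases hij : i = j
    · subst hij
      rw [if_pos rfl, Matrix.diagonal_apply_eq, map_mul, smul_eq_mul, mul_comm]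
      congr 1
      fin_cases i <;> rfl
    · rw [if_neg hij, Matrix.diagonal_apply_ne _ hij, map_zero, smul_zero]

/-- The standard points. -/
theorem tyAt_Pw [CharZero E] (H : E6X.Hyp ρ σ lam g al s a b c) {w : E →+* ℂ} (_ : SC σ w) :
    TyAt σ g w (-(c : k)) (Pw al (gl : Oct a b c)) :=
  tyAt_Apt (bil_st H.al2 H.σal).1

theorem tyAt_Pm [CharZero E] (H : E6X.Hyp ρ σ lam g al s a b c) {w : E →+* ℂ} (_ : SC σ w) :
    TyAt σ g w (-(c : k)) (Pm al (gl : Oct a b c)) :=
  tyAt_Apt (bil_st H.al2 H.σal).2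

/-! The sign. -/

theorem her_sum_left (t : Fin 3 → E) (x : Fin 3 → AlbL E a b c) (y : AlbL E a b c) :
    her σ g (∑ i, t i • x i) y = ∑ i, t i * her σ g (x i) y := by
  rw [Fin.sum_univ_three, Fin.sum_univ_three, H493.her_add_left, H493.her_add_left,
    H493.her_smul_left, H493.her_smul_left, H493.her_smul_left]

theorem her_sum_right' (t : Fin 3 → E) (x : Fin 3 → AlbL E a b c) (y : AlbL E a b c) :
    her σ g y (∑ i, t i • x i) = ∑ i, σ (t i) * her σ g y (x i) := by
  rw [Fin.sum_univ_three, Fin.sum_univ_three, H493.her_add_right, H493.her_add_right,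
    H493.her_smul_right, H493.her_smul_right, H493.her_smul_right]

/-- Change of the elements. -/
theorem gram_change {w : E →+* ℂ} (hw : SC σ w) (P : Matrix (Fin 3) (Fin 3) E)
    (x : Fin 3 → AlbL E a b c) :
    gram σ g w (fun i => ∑ j, P i j • x j) = P.map w * gram σ g w x * (P.map w)ᴴ := by
  ext i j
  rw [gram, Matrix.of_apply, her_sum_left, map_sum, Matrix.mul_assoc, Matrix.mul_apply]
  refine Finset.sum_congr rfl fun m _ => ?_
  rw [her_sum_right', map_mul, map_sum, Matrix.mul_apply, Matrix.map_apply]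
  congr 1
  refine Finset.sum_congr rfl fun n _ => ?_
  rw [map_mul, hw, Matrix.conjTranspose_apply, Matrix.map_apply, mul_comm]
  rfl

theorem linInd_of_gram {w : E →+* ℂ} {x : Fin 3 → AlbL E a b c}
    (h : (gram σ g w x).det ≠ 0) : LinearIndependent E x := by
  rw [Fintype.linearIndependent_iff]
  intro t ht
  have h1 : (fun i => w (t i)) ᵥ* gram σ g w x = 0 := by
    funext j
    have h2 : her σ g (∑ i, t i • x i) (x j) = 0 := by
      rw [ht]
      have h3 := H493.her_smul_left (σ := σ) (g := g) (0 : E) (0 : AlbL E a b c) (x j)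
      rwa [zero_smul, zero_mul] at h3
    rw [her_sum_left] at h2
    have h3 := congrArg w h2
    rw [map_sum, map_zero] at h3
    rw [Matrix.vecMul, dotProduct, Pi.zero_apply, ← h3]
    refine Finset.sum_congr rfl fun i _ => ?_
    rw [map_mul]
    rfl
  have h2 := Matrix.eq_zero_of_vecMul_eq_zero h h1
  intro i
  exact (map_eq_zero w).1 (congrFun h2 i)

theorem tyAt_det {w : E →+* ℂ} (hw : SC σ w) (hσg : ∀ i, σ (g i) = g i) {f : k} (hf : f ≠ 0)
    {x : Fin 3 → AlbL E a b c} {Q : Matrix (Fin 3) (Fin 3) ℂ}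
    (h : Q * gram σ g w x * Qᴴ = w (algebraMap k E f) • gst g w) :
    (gram σ g w x).det ≠ 0 ∧ (gst g w).det ≠ 0 := by
  obtain ⟨r, hr0, hr, -⟩ := gst_real hw hσg
  have h1 : (gst g w).det ≠ 0 := by
    rw [hr, Matrix.det_diagonal]
    exact Finset.prod_ne_zero_iff.2 fun i _ => by exact_mod_cast hr0 i
  refine ⟨fun h2 => ?_, h1⟩
  have h3 := congrArg Matrix.det h
  rw [Matrix.det_mul, Matrix.det_mul, h2, mul_zero, zero_mul, Matrix.det_smul] at h3
  refine mul_ne_zero (pow_ne_zero _ ?_) h1 h3.symm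
  exact (map_ne_zero w).2 ((map_ne_zero (algebraMap k E)).2 hf)

/-- The multiple is determined up to the sign by the space. -/
theorem tyAt_sign (H : E6X.Hyp ρ σ lam g al s a b c) {w : E →+* ℂ} (hw : SC σ w) {f f' : k}
    (hf : f ≠ 0) (hf' : f' ≠ 0) {A : Submodule E (AlbL E a b c)}
    (hA : Module.finrank E A = 3) (h1 : TyAt σ g w f A) (h2 : TyAt σ g w f' A) :
    0 < vk w (f * f') := by
  obtain ⟨x, hx, Q, hQ, hxe⟩ := h1
  obtain ⟨y, hy, R, hR, hye⟩ := h2
  obtain ⟨hdx, hds⟩ := tyAt_det hw H.σg hf hxe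
  have hli := linInd_of_gram hdx
  -- the elements of the second triple are combinations of the elements of the first one
  have hli' : LinearIndependent E (fun i => (⟨x i, hx i⟩ : A)) := by
    refine LinearIndependent.of_comp A.subtype ?_
    exact hli
  have hcard : Fintype.card (Fin 3) = Module.finrank E A := by rw [hA, Fintype.card_fin]
  have hex : ∀ i, ∃ t : Fin 3 → E, ∑ j, t j • x j = y i := by
    intro i
    have hb := (basisOfLinearIndependentOfCardEqFinrank hli' hcard).sum_repr ⟨y i, hy i⟩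
    refine ⟨fun j => (basisOfLinearIndependentOfCardEqFinrank hli' hcard).repr ⟨y i, hy i⟩ j, ?_⟩
    have h3 := congrArg A.subtype hb
    rw [map_sum] at h3
    simpa using h3
  choose P hP using hex
  have hye' : gram σ g w y = (Matrix.of P).map w * gram σ g w x * ((Matrix.of P).map w)ᴴ := by
    rw [← gram_change hw]
    congr 1
    funext i
    exact (hP i).symm
  have d1 := congrArg Matrix.det hxe
  have d2 := congrArg Matrix.det hye
  rw [hye'] at d2
  rw [Matrix.det_mul, Matrix.det_mul, Matrix.det_conjTranspose, Matrix.det_smul] at d1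
  rw [Matrix.det_mul, Matrix.det_mul, Matrix.det_conjTranspose, Matrix.det_mul, Matrix.det_mul,
    Matrix.det_conjTranspose, Matrix.det_smul] at d2
  rw [Fintype.card_fin, ← vk_eq hw] at d1 d2
  have hq : Q.det ≠ 0 := ((Matrix.isUnit_iff_isUnit_det _).1 hQ).ne_zero
  obtain ⟨p, hp⟩ : ∃ p, p = R.det * ((Matrix.of P).map w).det := ⟨_, rfl⟩
  -- comparison of the determinants
  have d3 : ((vk w f : ℂ) ^ 3) * (p * star p) = (Q.det * star Q.det) * (vk w f' : ℂ) ^ 3 := by
    have e1 : (gst g w).det * (((vk w f : ℂ) ^ 3) * (p * star p)) =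
        (gst g w).det * ((Q.det * star Q.det) * (vk w f' : ℂ) ^ 3) := by
      rw [hp, star_mul]
      linear_combination (-(R.det * star R.det * ((Matrix.of P).map w).det *
        star ((Matrix.of P).map w).det)) * d1 + (Q.det * star Q.det) * d2
    exact mul_left_cancel₀ hds e1
  have e2 : ∀ z : ℂ, z * star z = ((Complex.normSq z : ℝ) : ℂ) := fun z => Complex.mul_conj z
  rw [e2, e2] at d3
  have d4 : vk w f ^ 3 * Complex.normSq p = Complex.normSq Q.det * vk w f' ^ 3 := by
    exact_mod_cast d3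
  have hnq : 0 < Complex.normSq Q.det := Complex.normSq_pos.2 hq
  have hnp : 0 ≤ Complex.normSq p := Complex.normSq_nonneg p
  rw [vk_mul hw]
  have hf1 := vk_ne hw hf
  have hf2 := vk_ne hw hf'
  by_contra hneg
  push Not at hneg
  have h5 : vk w f * vk w f' < 0 := lt_of_le_of_ne hneg (mul_ne_zero hf1 hf2)
  have h6 : (vk w f * vk w f') ^ 3 < 0 := by
    have := pow_pos (neg_pos.2 h5) 3
    nlinarith [this, sq_nonneg (vk w f * vk w f')]
  have h7 : vk w f ^ 3 * (vk w f ^ 3 * Complex.normSq p) =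
      Complex.normSq Q.det * (vk w f * vk w f') ^ 3 := by rw [d4]; ring
  have h8 : 0 ≤ vk w f ^ 3 * (vk w f ^ 3 * Complex.normSq p) := by
    have : vk w f ^ 3 * (vk w f ^ 3 * Complex.normSq p) =
      (vk w f ^ 3) ^ 2 * Complex.normSq p := by ring
    rw [this]
    positivity
  have h9 := mul_neg_of_pos_of_neg hnq h6
  linarith

/-! Definite places. -/

/-- An orthogonal basis. -/
theorem exists_orth3 (σ2 : ∀ x, σ (σ x) = x) (σg : ∀ i, σ (g i) = g i)
    (han : ∀ x : AlbL E a b c, x ≠ 0 → her σ g x x ≠ 0) {A : Submodule E (AlbL E a b c)}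
    (hA : Module.finrank E A = 3) : ∃ x : Fin 3 → AlbL E a b c, (∀ i, x i ∈ A) ∧
      (∀ i, x i ≠ 0) ∧ ∀ i j, i ≠ j → her σ g (x i) (x j) = 0 := by
  obtain ⟨B⟩ : Nonempty (Module.Basis (Fin 3) E A) := by
    have : Module.Finite E A := Module.finite_of_finrank_pos (by rw [hA]; norm_num)
    exact ⟨Module.finBasisOfFinrankEq E A hA⟩
  obtain ⟨y, hy⟩ : ∃ y : Fin 3 → AlbL E a b c, y = fun i => (B i : AlbL E a b c) := ⟨_, rfl⟩
  have hyA : ∀ i, y i ∈ A := fun i => by rw [hy]; exact (B i).2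
  have hli : ∀ p q r : E, p • y 0 + q • y 1 + r • y 2 = 0 → p = 0 ∧ q = 0 ∧ r = 0 := by
    intro p q r h
    have h1 : LinearIndependent E y := by
      rw [hy]
      exact B.linearIndependent.map' A.subtype A.ker_subtype
    have h2 := (Fintype.linearIndependent_iff.1 h1) ![p, q, r] (by
      rw [Fin.sum_univ_three]
      exact h)
    exact ⟨h2 0, h2 1, h2 2⟩
  have hst : ∀ u v : AlbL E a b c, her σ g u v = 0 → her σ g v u = 0 := by
    intro u v h
    rw [← her_star σ2 σg, h, map_zero]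
  have hn : ∀ (t : E) (u v : AlbL E a b c), her σ g (u + (-t) • v) v =
      her σ g u v - t * her σ g v v := by
    intro t u v
    rw [H493.her_add_left, H493.her_smul_left]
    ring
  have x0 : y 0 ≠ 0 := by
    intro h
    have h1 := hli 1 0 0 (by rw [h]; simp)
    exact one_ne_zero h1.1
  obtain ⟨t, ht⟩ : ∃ t, t = her σ g (y 1) (y 0) / her σ g (y 0) (y 0) := ⟨_, rfl⟩
  obtain ⟨x1, hx1⟩ : ∃ x1, x1 = y 1 + (-t) • y 0 := ⟨_, rfl⟩
  have h10 : her σ g x1 (y 0) = 0 := by
    rw [hx1, hn, ht, div_mul_cancel₀ _ (han _ x0), sub_self]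
  have x1n : x1 ≠ 0 := by
    intro h
    have h1 := hli (-t) 1 0 (by
      rw [one_smul, zero_smul, add_zero, add_comm, ← hx1, h])
    exact one_ne_zero h1.2.1
  obtain ⟨r, hr⟩ : ∃ r, r = her σ g (y 2) (y 0) / her σ g (y 0) (y 0) := ⟨_, rfl⟩
  obtain ⟨v, hv⟩ : ∃ v, v = her σ g (y 2) x1 / her σ g x1 x1 := ⟨_, rfl⟩
  obtain ⟨x2, hx2⟩ : ∃ x2, x2 = y 2 + (-r) • y 0 + (-v) • x1 := ⟨_, rfl⟩
  have h20 : her σ g x2 (y 0) = 0 := by
    rw [hx2, H493.her_add_left, H493.her_smul_left, h10, hn, hr, div_mul_cancel₀ _ (han _ x0)]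
    ring
  have h21 : her σ g x2 x1 = 0 := by
    rw [hx2, hn, H493.her_add_left, H493.her_smul_left, hst _ _ h10, hv,
      div_mul_cancel₀ _ (han _ x1n)]
    ring
  have x2n : x2 ≠ 0 := by
    intro h
    have h1 := hli (-r + v * t) (-v) 1 (by
      rw [← h, hx2, hx1]
      module)
    exact one_ne_zero h1.2.2
  refine ⟨![y 0, x1, x2], fun i => ?_, fun i => ?_, fun i j hij => ?_⟩
  · have m1 : x1 ∈ A := by
      rw [hx1]
      exact A.add_mem (hyA 1) (A.smul_mem _ (hyA 0))
    have m2 : x2 ∈ A := by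
      rw [hx2]
      exact A.add_mem (A.add_mem (hyA 2) (A.smul_mem _ (hyA 0))) (A.smul_mem _ m1)
    fin_cases i
    · exact hyA 0
    · exact m1
    · exact m2
  · fin_cases i
    · exact x0
    · exact x1n
    · exact x2n
  · fin_cases i <;> fin_cases j
    · exact absurd rfl hij
    · exact hst _ _ h10
    · exact hst _ _ h20
    · exact h10
    · exact absurd rfl hij
    · exact hst _ _ h21
    · exact h20
    · exact h21
    · exact absurd rfl hij

theorem tyAt_pos (H : E6X.Hyp ρ σ lam g al s a b c) {w : E →+* ℂ} (hw : SC σ w)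
    (hpos : ∀ x : AlbL E a b c, x ≠ 0 → 0 < (w (her σ g x x)).re)
    (hg : 0 < (w (g 0 * g 1)).re ∧ 0 < (w (g 1 * g 2)).re) {f : k} (hf : 0 < vk w f)
    {A : Submodule E (AlbL E a b c)} (hA : Module.finrank E A = 3) : TyAt σ g w f A := by
  obtain ⟨x, hxA, hx0, ho⟩ := exists_orth3 H.σ2 H.σg (fun x hx h0 => by
    have h1 := hpos x hx
    rw [h0, map_zero, Complex.zero_re] at h1
    exact lt_irrefl _ h1) hA
  obtain ⟨r, hr0, hr, r0, r1, r2⟩ := gst_real hw H.σg
  have hG : gram σ g w x = Matrix.diagonal fun i => (((w (her σ g (x i) (x i))).re : ℝ) : ℂ) := by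
    ext i j
    rw [gram, Matrix.of_apply]
    by_cases hij : i = j
    · subst hij
      rw [Matrix.diagonal_apply_eq]
      exact (real_of_fix hw (her_star H.σ2 H.σg (x i) (x i))).symm
    · rw [Matrix.diagonal_apply_ne _ hij, ho i j hij, map_zero]
  have hP : (gram σ g w x).PosDef := by
    rw [hG]
    refine Matrix.PosDef.diagonal fun i => ?_
    have h1 := hpos _ (hx0 i)
    exact_mod_cast h1
  -- the third weight is positive
  have hprod : r 0 * r 1 * r 2 = ((w (g 0 * g 1 * g 2 : E)).re) ^ 2 := by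
    have hσ3 : σ ((g 0 : E) * g 1 * g 2) = g 0 * g 1 * g 2 := by
      rw [map_mul, map_mul, H.σg, H.σg, H.σg]
    have e := real_of_fix hw hσ3
    have e0 : (r 0 : ℂ) = w ((g 1 : E) * g 2) := by
      rw [r0]
      exact real_of_fix hw (by rw [map_mul, H.σg, H.σg])
    have e1 : (r 1 : ℂ) = w ((g 2 : E) * g 0) := by
      rw [r1]
      exact real_of_fix hw (by rw [map_mul, H.σg, H.σg])
    have e2 : (r 2 : ℂ) = w ((g 0 : E) * g 1) := by
      rw [r2]
      exact real_of_fix hw (by rw [map_mul, H.σg, H.σg])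
    have e3 : ((r 0 * r 1 * r 2 : ℝ) : ℂ) = (((w (g 0 * g 1 * g 2 : E)).re) ^ 2 : ℝ) := by
      rw [Complex.ofReal_mul, Complex.ofReal_mul, Complex.ofReal_pow, e, e0, e1, e2,
        ← map_mul, ← map_mul, ← map_pow]
      congr 1
      ring
    exact_mod_cast e3
  have h0 : 0 < r 0 := by rw [r0]; exact hg.2
  have h2 : 0 < r 2 := by rw [r2]; exact hg.1
  have h1 : 0 < r 1 := by
    have h3 : 0 ≤ r 0 * r 1 * r 2 := by rw [hprod]; positivity
    have h4 : 0 < r 0 * r 2 := mul_pos h0 h2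
    have h5 : 0 ≤ (r 0 * r 2) * r 1 := by
      have : (r 0 * r 2) * r 1 = r 0 * r 1 * r 2 := by ring
      rw [this]
      exact h3
    exact lt_of_le_of_ne (nonneg_of_mul_nonneg_right h5 h4) (hr0 1).symm
  have hrp : ∀ i, 0 < r i := by
    intro i
    fin_cases i
    · exact h0
    · exact h1
    · exact h2
  obtain ⟨Q, hQ, h⟩ := pos_congr hP (fun i => vk w f * r i) fun i => mul_pos hf (hrp i)
  exact ⟨x, hxA, Q, hQ, by rw [smul_gst hw hr f]; exact h⟩

end Vale.Agent.P011.E6X
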