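import Mathlib.LinearAlgebra.Matrix.NonsingularInverse
import Mathlib.Analysis.Complex.Basic
import Mathlib.Analysis.SpecialFunctions.Sqrt
import Mathlib.Topology.Instances.Matrix

/-!
A hermitian matrix of size three which is close to an invertible real diagonal matrix is congruent
to it.
-/

open Matrix Topology Filter

namespace Vale.Agent.P011.E6X

/-- Elimination. -/
theorem elim3 {a b c b' d e c' e' f p x y x' y' : ℂ} (ha : a ≠ 0) (hp : p = d - b' * b / a)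
    (hp0 : p ≠ 0) (hx : x = -(e' - c' * b / a) / p) (hy : y = -(c' + x * b') / a)
    (hx' : x' = -(e - b' * c / a) / p) (hy' : y' = -(c + x' * b) / a) :
    (!![1, 0, 0; -b' / a, 1, 0; y, x, 1] : Matrix (Fin 3) (Fin 3) ℂ) *
      !![a, b, c; b', d, e; c', e', f] * !![1, -b / a, y'; 0, 1, x'; 0, 0, 1] =
      Matrix.diagonal ![a, p, f - c' * c / a - (e' - c' * b / a) * (e - b' * c / a) / p] := by
  have hxp : x * p = -(e' - c' * b / a) := by rw [hx]; field_simp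
  have hxp' : x' * p = -(e - b' * c / a) := by rw [hx']; field_simp
  have hya : y * a = -(c' + x * b') := by rw [hy]; field_simp
  have hya' : a * y' = -(c + x' * b) := by rw [hy']; field_simp
  have hd : d = p + b' * b / a := by rw [hp]; ring
  have e1 : (!![1, 0, 0; -b' / a, 1, 0; y, x, 1] : Matrix (Fin 3) (Fin 3) ℂ) *
      !![a, b, c; b', d, e; c', e', f] =
      !![a, b, c; 0, p, e - b' * c / a; 0, 0,
        f - c' * c / a - (e' - c' * b / a) * (e - b' * c / a) / p] := by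
    ext i j
    fin_cases i <;> fin_cases j <;> simp [Matrix.mul_apply, Fin.sum_univ_three]
    · field_simp
      ring
    · rw [hp]; ring
    · ring
    · linear_combination hya
    · have h1 : y * b + x * d + e' = 0 := by
        have h2 : y = -(c' + x * b') / a := hy
        rw [h2, hd]
        have h3 : x * p = -(e' - c' * b / a) := hxp
        have h4 : -(c' + x * b') / a * b + x * (p + b' * b / a) + e' =
          x * p + (e' - c' * b / a) := by ring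
        rw [h4, h3]; ring
      exact h1
    · rw [hy, hx]
      ring
  rw [e1]
  ext i j
  fin_cases i <;> fin_cases j <;> simp [Matrix.mul_apply, Fin.sum_univ_three]
  · field_simp
    ring
  · linear_combination hya'
  · linear_combination hxp'

/-- The pivots of a matrix of size three. -/
noncomputable def pv (G : Matrix (Fin 3) (Fin 3) ℂ) : Fin 3 → ℂ := ![G 0 0,
  G 1 1 - G 1 0 * G 0 1 / G 0 0,
  G 2 2 - G 2 0 * G 0 2 / G 0 0 - (G 2 1 - G 2 0 * G 0 1 / G 0 0) *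
    (G 1 2 - G 1 0 * G 0 2 / G 0 0) / (G 1 1 - G 1 0 * G 0 1 / G 0 0)]

/-- Congruence with the diagonal matrix of the pivots. -/
theorem pv_congr {G : Matrix (Fin 3) (Fin 3) ℂ} (hG : ∀ i j, star (G i j) = G j i)
    (h0 : pv G 0 ≠ 0) (h1 : pv G 1 ≠ 0) :
    (∀ i, star (pv G i) = pv G i) ∧
    ∃ Q : Matrix (Fin 3) (Fin 3) ℂ, IsUnit Q ∧ Q * G * Qᴴ = Matrix.diagonal (pv G) := by
  change G 0 0 ≠ 0 at h0
  change G 1 1 - G 1 0 * G 0 1 / G 0 0 ≠ 0 at h1
  have hs : ∀ i, star (pv G i) = pv G i := by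
    intro i
    fin_cases i
    · exact hG 0 0
    · change star (G 1 1 - G 1 0 * G 0 1 / G 0 0) = G 1 1 - G 1 0 * G 0 1 / G 0 0
      rw [star_sub, star_div₀, star_mul, hG, hG, hG, hG]
    · change star (G 2 2 - G 2 0 * G 0 2 / G 0 0 - (G 2 1 - G 2 0 * G 0 1 / G 0 0) *
        (G 1 2 - G 1 0 * G 0 2 / G 0 0) / (G 1 1 - G 1 0 * G 0 1 / G 0 0)) =
        G 2 2 - G 2 0 * G 0 2 / G 0 0 - (G 2 1 - G 2 0 * G 0 1 / G 0 0) *
        (G 1 2 - G 1 0 * G 0 2 / G 0 0) / (G 1 1 - G 1 0 * G 0 1 / G 0 0)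
      simp only [star_sub, star_div₀, star_mul, hG]
  refine ⟨hs, ?_⟩
  obtain ⟨p, hp⟩ : ∃ p, p = G 1 1 - G 1 0 * G 0 1 / G 0 0 := ⟨_, rfl⟩
  obtain ⟨x, hx⟩ : ∃ x : ℂ, x = -(G 2 1 - G 2 0 * G 0 1 / G 0 0) / p := ⟨_, rfl⟩
  obtain ⟨y, hy⟩ : ∃ y : ℂ, y = -(G 2 0 + x * G 1 0) / G 0 0 := ⟨_, rfl⟩
  have hps : star p = p := by
    rw [hp]
    exact hs 1
  have hx' : star x = -(G 1 2 - G 1 0 * G 0 2 / G 0 0) / p := by
    rw [hx, star_div₀, star_neg, star_sub, star_div₀, star_mul, hG, hG, hG, hG, hps]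
  have hy' : star y = -(G 0 2 + star x * G 0 1) / G 0 0 := by
    rw [hy, star_div₀, star_neg, star_add, star_mul, hG, hG, hG, mul_comm (G 0 1)]
  have key := elim3 (f := G 2 2) h0 hp (by rw [hp]; exact h1) hx hy hx' hy'
  have hQ : (!![1, 0, 0; -G 1 0 / G 0 0, 1, 0; y, x, 1] : Matrix (Fin 3) (Fin 3) ℂ)ᴴ =
      !![1, -G 0 1 / G 0 0, star y; 0, 1, star x; 0, 0, 1] := by
    have e0 : star (-G 1 0 / G 0 0) = -G 0 1 / G 0 0 := by
      rw [star_div₀, star_neg, hG, hG]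
    ext i j
    rw [Matrix.conjTranspose_apply]
    fin_cases i <;> fin_cases j <;>
      first | exact e0 | exact star_one ℂ | exact star_zero ℂ | rfl
  have hGe : !![G 0 0, G 0 1, G 0 2; G 1 0, G 1 1, G 1 2; G 2 0, G 2 1, G 2 2] = G := by
    ext i j
    fin_cases i <;> fin_cases j <;> rfl
  refine ⟨!![1, 0, 0; -G 1 0 / G 0 0, 1, 0; y, x, 1], ?_, ?_⟩
  · rw [Matrix.isUnit_iff_isUnit_det, Matrix.det_fin_three]
    simp
  · rw [hQ]
    rw [hGe] at key
    rw [key]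
    congr 1
    funext i
    fin_cases i
    · rfl
    · exact hp
    · simp [pv, hp]

theorem ct_pv (d : Fin 3 → ℝ) (hd : ∀ i, d i ≠ 0) (i : Fin 3) :
    ContinuousAt (fun G : Fin 3 → Fin 3 → ℂ => pv G i)
      (Matrix.diagonal (fun i => (d i : ℂ)) : Matrix (Fin 3) (Fin 3) ℂ) ∧
    pv (Matrix.diagonal (fun i => (d i : ℂ))) i = d i := by
  have hc : ∀ i j, ContinuousAt (fun G : Fin 3 → Fin 3 → ℂ => G i j)
      (Matrix.diagonal (fun i => (d i : ℂ)) : Matrix (Fin 3) (Fin 3) ℂ) := fun i j =>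
    ((continuous_apply j).comp (continuous_apply i)).continuousAt
  have h0 : ((Matrix.diagonal (fun i => (d i : ℂ)) : Matrix (Fin 3) (Fin 3) ℂ)) 0 0 ≠ 0 := by
    rw [Matrix.diagonal_apply_eq]
    exact_mod_cast hd 0
  have h1 : ((Matrix.diagonal (fun i => (d i : ℂ)) : Matrix (Fin 3) (Fin 3) ℂ)) 1 1 -
      ((Matrix.diagonal (fun i => (d i : ℂ)) : Matrix (Fin 3) (Fin 3) ℂ)) 1 0 *
      ((Matrix.diagonal (fun i => (d i : ℂ)) : Matrix (Fin 3) (Fin 3) ℂ)) 0 1 /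
      ((Matrix.diagonal (fun i => (d i : ℂ)) : Matrix (Fin 3) (Fin 3) ℂ)) 0 0 ≠ 0 := by
    rw [Matrix.diagonal_apply_eq, Matrix.diagonal_apply_ne _ (by decide), zero_mul, zero_div,
      sub_zero]
    exact_mod_cast hd 1
  fin_cases i
  · exact ⟨hc 0 0, Matrix.diagonal_apply_eq _ _⟩
  · refine ⟨(hc 1 1).sub (((hc 1 0).mul (hc 0 1)).div (hc 0 0) h0), ?_⟩
    simp [pv]
  · refine ⟨((hc 2 2).sub (((hc 2 0).mul (hc 0 2)).div (hc 0 0) h0)).sub
      ((((hc 2 1).sub (((hc 2 0).mul (hc 0 1)).div (hc 0 0) h0)).mul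
      ((hc 1 2).sub (((hc 1 0).mul (hc 0 2)).div (hc 0 0) h0))).div
      ((hc 1 1).sub (((hc 1 0).mul (hc 0 1)).div (hc 0 0) h0)) h1), ?_⟩
    simp [pv]

/-- **A hermitian matrix close to an invertible real diagonal matrix is congruent to it.** -/
theorem near_congr (d : Fin 3 → ℝ) (hd : ∀ i, d i ≠ 0) :
    ∃ δ : ℝ, 0 < δ ∧ ∀ G : Matrix (Fin 3) (Fin 3) ℂ, (∀ i j, star (G i j) = G j i) →
      (∀ i j, ‖G i j - Matrix.diagonal (fun i => (d i : ℂ)) i j‖ < δ) →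
      ∃ Q : Matrix (Fin 3) (Fin 3) ℂ, IsUnit Q ∧
        Q * G * Qᴴ = Matrix.diagonal (fun i => (d i : ℂ)) := by
  have h1 : ∀ i, ∀ᶠ G : Fin 3 → Fin 3 → ℂ in
      𝓝 (Matrix.diagonal (fun i => (d i : ℂ)) : Matrix (Fin 3) (Fin 3) ℂ),
      0 < ((d i : ℂ)⁻¹ * pv G i).re := by
    intro i
    obtain ⟨hc, he⟩ := ct_pv d hd i
    have h2 : ContinuousAt (fun G : Fin 3 → Fin 3 → ℂ => ((d i : ℂ)⁻¹ * pv G i).re)
        (Matrix.diagonal (fun i => (d i : ℂ)) : Matrix (Fin 3) (Fin 3) ℂ) :=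
      Complex.continuous_re.continuousAt.comp (continuousAt_const.mul hc)
    refine h2.eventually (lt_mem_nhds ?_)
    change 0 < ((d i : ℂ)⁻¹ * pv (Matrix.diagonal (fun i => (d i : ℂ))) i).re
    have h3 : (d i : ℂ) ≠ 0 := by exact_mod_cast hd i
    rw [he, inv_mul_cancel₀ h3, Complex.one_re]
    exact one_pos
  have h2 := Filter.eventually_all.2 h1
  obtain ⟨δ, hδ, h3⟩ := Metric.eventually_nhds_iff.1 h2
  refine ⟨δ, hδ, fun G hG hn => ?_⟩
  have h4 := h3 (y := (G : Fin 3 → Fin 3 → ℂ)) (by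
    refine (dist_pi_lt_iff hδ).2 fun i => (dist_pi_lt_iff hδ).2 fun j => ?_
    rw [dist_eq_norm]
    exact hn i j)
  have hne : ∀ i, pv G i ≠ 0 := by
    intro i h0
    have h5 := h4 i
    rw [h0, mul_zero, Complex.zero_re] at h5
    exact lt_irrefl _ h5
  obtain ⟨hs, Q, hQ, hQe⟩ := pv_congr hG (hne 0) (hne 1)
  -- the pivots are real multiples of `d i` by positive factors
  have h5 : ∀ i, ∃ r : ℝ, 0 < r ∧ pv G i = (r : ℂ) * (d i : ℂ) := by
    intro i
    have h6 : (starRingEnd ℂ) (pv G i) = pv G i := hs i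
    obtain ⟨t, ht⟩ := Complex.conj_eq_iff_real.1 h6
    refine ⟨t / d i, ?_, ?_⟩
    · have h7 := h4 i
      rw [ht, ← Complex.ofReal_inv, ← Complex.ofReal_mul, Complex.ofReal_re] at h7
      rwa [div_eq_inv_mul]
    · rw [ht, ← Complex.ofReal_mul, div_mul_cancel₀ _ (hd i)]
  choose r hr hre using h5
  refine ⟨Matrix.diagonal (fun i => ((Real.sqrt (r i))⁻¹ : ℂ)) * Q, ?_, ?_⟩
  · refine IsUnit.mul ?_ hQ
    rw [Matrix.isUnit_iff_isUnit_det, Matrix.det_diagonal, isUnit_iff_ne_zero]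
    refine Finset.prod_ne_zero_iff.2 fun i _ => ?_
    have h6 : Real.sqrt (r i) ≠ 0 := (Real.sqrt_pos.2 (hr i)).ne'
    have h7 : (Real.sqrt (r i) : ℂ) ≠ 0 := by exact_mod_cast h6
    exact inv_ne_zero h7
  · have e1 : (Matrix.diagonal (fun i => ((Real.sqrt (r i))⁻¹ : ℂ)) : Matrix (Fin 3) (Fin 3) ℂ)ᴴ =
        Matrix.diagonal (fun i => ((Real.sqrt (r i))⁻¹ : ℂ)) := by
      rw [Matrix.diagonal_conjTranspose]
      congr 1
      funext i
      rw [Pi.star_apply, ← Complex.ofReal_inv]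
      exact Complex.conj_ofReal _
    rw [Matrix.conjTranspose_mul, e1]
    calc Matrix.diagonal (fun i => ((Real.sqrt (r i))⁻¹ : ℂ)) * Q * G *
        (Qᴴ * Matrix.diagonal (fun i => ((Real.sqrt (r i))⁻¹ : ℂ))) =
        Matrix.diagonal (fun i => ((Real.sqrt (r i))⁻¹ : ℂ)) * (Q * G * Qᴴ) *
          Matrix.diagonal (fun i => ((Real.sqrt (r i))⁻¹ : ℂ)) := by
          simp only [Matrix.mul_assoc]
      _ = Matrix.diagonal (fun i => (d i : ℂ)) := by
          rw [hQe, Matrix.diagonal_mul_diagonal, Matrix.diagonal_mul_diagonal]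
          congr 1
          funext i
          have h6 : Real.sqrt (r i) ≠ 0 := (Real.sqrt_pos.2 (hr i)).ne'
          have h7 : (Real.sqrt (r i) : ℂ) ≠ 0 := by exact_mod_cast h6
          have h8 : (r i : ℂ) = (Real.sqrt (r i) : ℂ) * (Real.sqrt (r i) : ℂ) := by
            rw [← Complex.ofReal_mul, Real.mul_self_sqrt (hr i).le]
          rw [hre i, h8]
          field_simp

end Vale.Agent.P011.E6X
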